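import Vale.Agent.P210E.Defs
import Vale.Agent.P210L.Lev
import Vale.Agent.P210H.Main

/-!
# P210X: the Hardy weights on the neck and on the limit; statements
-/

open Filter Topology Set
open scoped ContDiff
open Vale.Agent.P366D (Rf Mc Sub pull)
open Vale.Agent.P366M Vale.Agent.P366M.Gr Vale.Agent.P366M.An Vale.Agent.P366M.Y.C
open Vale.Agent.P210G Vale.Agent.P210H
open Vale.Agent.P210L (Vf)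

noncomputable section

namespace Vale.Agent.P210X

/-- the logarithmic weight of two Hardy potentials -/
def lg {Y : Type} (W₁ W₂ : Y → ℝ) (y : Y) : ℝ := 1 / 2 * Real.log (W₁ y) + 1 / 4 * Real.log (W₂ y)

/-- **ACT**: the actual drift with the Hardy weights -/
def ACT : Prop := ∀ (k : ℕ) (Y I : Type) [Mf0 (k + 1) Y] (𝒰 : Ultrafilter I) (g : Fld (k + 1) Y)
  (f h : Y → ℝ) (u : I → Y → ℝ) (c e : I → ℝ) (O K : Set Y) (Λ : ℝ) (P : Y → ℝ),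
  Vf 𝒰 g f h u c e O K Λ → (∀ x ∈ O, P x ≤ Rf g f x + h x ^ 2 - 2 * gn g h x) →
  ∃ B₀ : ℝ, ∀ B ≥ B₀, ∀ (S C₁ C₂ : Set Y) (Γ η θ₁ θ₂ T₁ T₂ h₁ h₂ : ℝ) (W₁ w₁ q₁ W₂ w₂ q₂ : Y → ℝ),
  0 < η → Hdy g S C₁ B Γ η θ₁ T₁ h₁ W₁ w₁ q₁ → Hdy g S C₂ B 0 η θ₂ T₂ h₂ W₂ w₂ q₂ →
  ∀ S₀, ∀ᶠ i in (𝒰 : Filter I), ∀ x, |u i x| ≤ S₀ →
    P x - 3 * η + Γ * ((W₁ x - 1) / W₁ x) + (gn (gb g 1 (u i)) W₂ x / W₂ x) ^ 2 / 8 ≤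
      Rv (gb g 1 (u i)) (fun j y => vg g (fun j y => -pd j f y) (u i) j y - pd j (lg W₁ W₂) y) x

/-- **ZST**: the state on the limit with the Hardy weights, given by an ambient drift `Ω` -/
def ZST : Prop := ∀ (k : ℕ) (Y Z I : Type) [Mf0 (k + 2) Y] [Mf0 (k + 1) Z] (𝒰 : Ultrafilter I)
  (g : Fld (k + 2) Y) (f h : Y → ℝ) (u : I → Y → ℝ) (c e : I → ℝ) (O K : Set Y) (Λ Λ' : ℝ)
  (P : Y → ℝ) (S : Set Y) (ι : Z → Y), Vf 𝒰 g f h u c e O K Λ → Smooth P →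
  (∀ x ∈ O, P x ≤ Rf g f x + h x ^ 2 - 2 * gn g h x) → Sub ι (La 𝒰 u \ S) →
  (∀ T > (0 : ℝ), ∀ z, Rg (𝒰 : Filter I) u T ι z) → Mc g ι Λ' →
  ∃ B₀ : ℝ, ∀ B ≥ B₀, Mc g ι B ∧ ∀ (C₁ C₂ C : Set Y) (Γ η θ₁ θ₂ T₁ T₂ h₁ h₂ : ℝ)
  (W₁ w₁ q₁ W₂ w₂ q₂ : Y → ℝ), 0 < η → Hdy g S C₁ B Γ η θ₁ T₁ h₁ W₁ w₁ q₁ →
  Hdy g S C₂ B 0 η θ₂ T₂ h₂ W₂ w₂ q₂ → IsCompact (ι ⁻¹' C) →
  ∃ Ω : Fin (k + 2) → Y → ℝ, CC ∞ Ω ∧ ∀ z, ι z ∈ C →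
    P (ι z) - 3 * η + Γ * ((W₁ (ι z) - 1) / W₁ (ι z)) +
      (gn (pull ι g) (fun z => W₂ (ι z)) z / W₂ (ι z)) ^ 2 / 8 ≤ Rv (pull ι g) (pullC ι Ω) z ∧
    (ι z ∉ C₂ → P (ι z) - 3 * η + Γ * ((W₁ (ι z) - 1) / W₁ (ι z)) +
      (gn (pull ι g) (fun z => W₁ (ι z)) z / W₁ (ι z)) ^ 2 / 2 ≤ Rv (pull ι g) (pullC ι Ω) z)

end Vale.Agent.P210X
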