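import Vale.Agent.P210X.Sta

/-!
# P210X: the plateau; statements
-/

open Filter Topology Set
open scoped ContDiff
open Vale.Agent.P366D (Rf Mc Sub pull)
open Vale.Agent.P366M Vale.Agent.P366M.Gr Vale.Agent.P366M.An Vale.Agent.P366M.Y.C
open Vale.Agent.P210G Vale.Agent.P210H Vale.Agent.P210E Vale.Agent.P210U
open Vale.Agent.P210L (Vf)
open Fin (last)

noncomputable section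

namespace Vale.Agent.P210X

/-- **PLAT**: the state, the scale and the map on the plateau of the neck -/
def PLAT (k : ℕ) : Prop := ∃ C ≥ (1 : ℝ), ∃ c > (0 : ℝ), c ≤ 1 / 4 ∧ ∀ a > (0 : ℝ), ∀ η > (0 : ℝ),
  η ≤ a → ∃ ε₀ > (0 : ℝ), ∀ ε, 0 < ε → ε ≤ ε₀ → ∀ (M : Type) [Mf0 (k + 2) M] (g : Fld (k + 2) M)
  (v : Fin (k + 2) → M → ℝ) (l : M → ℝ) (G : Fin (k + 1) → M → ℝ) (O : Set M) (a₀ : ℝ)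
  (f h : M → ℝ) (u : ℕ → M → ℝ) (vs : ℕ → Fin (k + 2) → M → ℝ) (c' e : ℕ → ℝ) (O₀ K₀ : Set M)
  (Λ : ℝ), Bd g v l G O a₀ ε → a ≤ a₀ → Nck g v l G O a f h u vs c' e O₀ K₀ Λ →
  ∃ (l' : M → ℝ) (E : Fin k → M → ℝ) (B : ℝ), Smooth l' ∧ (∀ j, Smooth (E j)) ∧
    ∀ S₀, ∀ᶠ i in (hyperfilter ℕ : Filter ℕ), ∃ g' v',
      Reach g (K4 G O) (fun x => (a - η) / l x ^ 2) (g, v) (g', v') ∧ (∀ x, gn g' (u i) x ≤ 1) ∧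
      ∀ x, |u i x| ≤ S₀ → Pl l G (a - η) C c ε B g' v' l' E x

/-- the contribution of the regular part of the limit -/
structure Zs {k : ℕ} {M I : Type} [Mf0 (k + 2) M] (𝒰 : Ultrafilter I) (g : Fld (k + 2) M)
    (u : I → M → ℝ) (l : M → ℝ) (G : Fin (k + 1) → M → ℝ) (b₀ : Fin k → ℝ) (V w₁ W₂ : M → ℝ)
    (L a C c ε m : ℝ) (Ω : Fin (k + 2) → M → ℝ) (l' : M → ℝ) (E : Fin k → M → ℝ) (KU : Set M) :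
    Prop where
  cc : CC ∞ Ω
  sml : Smooth l'
  smE : ∀ j, Smooth (E j)
  cls : IsClosed KU
  sub : ∀ x ∈ KU, w₁ x ≤ 11 / 8
  cov : ∀ x ∈ La 𝒰 u, x ∈ interior KU ∨ 1 < w₁ x
  off : ∀ x ∉ KU, l' x = l x / m ∧ ∀ j, E j x = m * (G j.castSucc x - b₀ j)
  onA : ∀ x ∈ La 𝒰 u, x ∈ KU → 0 < l' x ∧ l' x < C * l x ∧
    Hom c (G (last k) x) (fun j => G j.castSucc x) fun j => E j x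
  val : ∀ S, ∀ᶠ i in (𝒰 : Filter I), ∀ x, |u i x| ≤ S → W₂ x ≤ L →
    V x + (gn (gb g 1 (u i)) W₂ x / W₂ x) ^ 2 / 8 ≤ Rv (gb g 1 (u i)) Ω x
  rch : ∀ S₀, ∃ S₁, ∀ᶠ i in (𝒰 : Filter I), ∃ d : St (k + 2) M,
    Reach (gb g 1 (u i)) (KU ∩ {x | |u i x| ≤ S₁}) (fun x => a / l x ^ 2) (gb g 1 (u i), Ω) d ∧
    ∀ x ∈ KU, |u i x| ≤ S₀ → a ≤ l' x ^ 2 * Rv d.1 d.2 x ∧ gn d.1 l' x ≤ C * ε ∧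
      ∀ j, l' x * gn d.1 (E j) x ≤ C * ε

/-- **ZSF**: the case of a non-empty regular part (from `ZL k`, `JET`, `TRANS`, `HOM1`,
`P210V.ext`) -/
def ZSF (k : ℕ) : Prop := ∃ C ≥ (1 : ℝ), ∃ c > (0 : ℝ), c ≤ 1 / 128 ∧ ∀ a > (0 : ℝ),
  ∀ η > (0 : ℝ), η ≤ a → ∃ ε₀ > (0 : ℝ), ∀ ε, 0 < ε → ε ≤ ε₀ → ∀ m ≥ (1 : ℝ), ∀ l₀ > (0 : ℝ),
  ∃ Γ₀ : ℝ, ∀ Γ ≥ Γ₀, ∀ (M Z I : Type) [Mf0 (k + 2) M] [Mf0 (k + 1) Z] (𝒰 : Ultrafilter I)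
  (g : Fld (k + 2) M) (f h : M → ℝ) (u : I → M → ℝ) (c' e : I → ℝ) (O K K₁ S C₁ : Set M)
  (Λ B τ L h₁ : ℝ) (ι : Z → M) (l : M → ℝ) (G : Fin (k + 1) → M → ℝ) (b₀ : Fin k → ℝ)
  (W₁ w₁ q₁ W₂ : M → ℝ) (Ω : Fin (k + 2) → M → ℝ), Vf 𝒰 g f h u c' e O K Λ →
  Sub ι (La 𝒰 u \ S) → (∀ T > (0 : ℝ), ∀ z, Rg (𝒰 : Filter I) u T ι z) → Mc g ι B →
  Smooth l → (∀ x, 0 < l x) → (∀ i, Smooth (G i)) → IsCompact K₁ → K ⊆ interior K₁ → 0 < τ →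
  τ ≤ 1 → (∀ x ∈ K₁, l₀ ≤ l x ∧ τ * l x ^ 2 ≤ η / 16 ∧ gn g l x ≤ ε ∧
    (∀ i, l x * gn g (G i) x ≤ ε) ∧ 7 / 16 < nsq G x ∧ nsq G x < 11 / 16) →
  ∑ j, b₀ j ^ 2 ≤ 1 / 256 → Hdy g S C₁ B Γ τ (1 / 64) 4 h₁ W₁ w₁ q₁ →
  (∀ x, 1 ≤ w₁ x → 1 ≤ m ^ 2 * ∑ j, (G j.castSucc x - b₀ j) ^ 2) →
  Smooth W₂ → (∀ x, 1 ≤ W₂ x) → (∀ x ∈ S, L < W₂ x) → CC ∞ Ω →
  (∀ z, W₂ (ι z) ≤ L → a / l (ι z) ^ 2 - 3 * τ + Γ * ((W₁ (ι z) - 1) / W₁ (ι z)) +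
    (gn (pull ι g) (fun z => W₂ (ι z)) z / W₂ (ι z)) ^ 2 / 8 ≤ Rv (pull ι g) (pullC ι Ω) z) →
  (∀ z, w₁ (ι z) ≤ 11 / 8 → a / l (ι z) ^ 2 - 3 * τ + Γ * ((W₁ (ι z) - 1) / W₁ (ι z)) +
    (gn (pull ι g) (fun z => W₁ (ι z)) z / W₁ (ι z)) ^ 2 / 2 ≤ Rv (pull ι g) (pullC ι Ω) z) →
  ∃ l' E KU, Zs 𝒰 g u l G b₀ (fun x => a / l x ^ 2 - 4 * τ + Γ * ((W₁ x - 1) / W₁ x)) w₁ W₂ L
    (a - η) C c ε m Ω l' E KU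

end Vale.Agent.P210X
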